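import Vale.Agent.P347.Quarter.Tilt.Interp

/-! # P347: the potential of the smoothed target -/

open MeasureTheory ProbabilityTheory Real Filter
open scoped RealInnerProductSpace Topology

namespace Vale.Agent.P347.Quarter

variable {d : ℕ} {W : Sp d → ℝ} {G : Sp d → Sp d} {H : Sp d → Sp d →L[ℝ] Sp d} {lo η : ℝ}

namespace IsPot

/-- `tilt_diff` without a sign condition on `η`. -/
lemma tilt_norm (hW : IsPot W G H 0 η) (hη : η ≤ 1 / 2) :
    ‖(∫ x, G x ∂gibbs W) - ∫ x, G x ∂gd d‖ ≤ 4 * η * (‖G 0‖ + η * √d) := by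
  rcases Nat.eq_zero_or_pos d with rfl | hd
  · have h : ∀ v : Sp 0, v = 0 := fun v => Subsingleton.elim _ _
    simp [h (G 0), h ((∫ x, G x ∂gibbs W) - ∫ x, G x ∂gd 0)]
  · have hη0 : 0 ≤ η := by
      have v : Sp d := EuclideanSpace.single ⟨0, hd⟩ (1:ℝ)
      have h1 := (hW.loHess 0 (EuclideanSpace.single ⟨0, hd⟩ (1:ℝ))).trans
        (hW.hiHess 0 (EuclideanSpace.single ⟨0, hd⟩ (1:ℝ)))
      simpa using h1
    have hG : ∀ x, ‖G x‖ ≤ (‖G 0‖ + |η|) * exp (1 * ‖x‖) := fun x => by
      rw [one_mul]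
      refine (hW.grad_le le_rfl x).trans ?_
      nlinarith [add_one_le_exp ‖x‖, le_abs_self η, abs_nonneg η, norm_nonneg (G 0), norm_nonneg x,
        mul_le_mul_of_nonneg_right (le_abs_self η) (norm_nonneg x)]
    have i1 : Integrable G (gibbs W) := hW.integrable_gibbs_of_le le_rfl hW.continuous_grad hG
    have i2 : Integrable G (gd d) := integrable_gam_of_le hW.continuous_grad hG
    set D := (∫ x, G x ∂gibbs W) - ∫ x, G x ∂gd d with hD
    rcases eq_or_lt_of_le (norm_nonneg D) with h | h
    · rw [← h]; positivity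
    · have := hW.tilt_inner hη hη0 D
      rw [integral_inner i1 D, integral_inner i2 D, ← inner_sub_right, ← hD,
        real_inner_self_eq_norm_sq] at this
      exact le_of_mul_le_mul_right (by linarith) h

/-- The potential seen by the Gaussian variable at the point `x`. -/
lemma slice (hW : IsPot W G H 0 η) {κ b : ℝ} (hb : 0 ≤ b) (hb1 : b ≤ 1) (x : Sp d) :
    IsPot (fun w => W (κ • x + b • w)) (fun w => b • G (κ • x + b • w))
      (fun w => b ^ 2 • H (κ • x + b • w)) 0 η where
  hasGrad w := by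
    have h1 : HasFDerivAt (fun w : Sp d => κ • x + b • w) (b • ContinuousLinearMap.id ℝ (Sp d)) w :=
      ((hasFDerivAt_id w).const_smul b).const_add _
    refine ((hW.hasGrad _).comp w h1).congr_fderiv ?_
    ext v
    simp
  hasHess w := by
    have h1 : HasFDerivAt (fun w : Sp d => κ • x + b • w) (b • ContinuousLinearMap.id ℝ (Sp d)) w :=
      ((hasFDerivAt_id w).const_smul b).const_add _
    refine (((hW.hasHess _).comp w h1).const_smul b).congr_fderiv ?_
    ext v
    simp [smul_smul, sq]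
  contHess := (hW.contHess.comp
    (by fun_prop : Continuous fun w : Sp d => κ • x + b • w)).const_smul (b ^ 2)
  symHess w u v := by simp [inner_smul_left, inner_smul_right, hW.symHess _ u v]
  loHess w v := by
    simp only [zero_mul, smul_apply, inner_smul_left, RCLike.conj_to_real]
    exact mul_nonneg (sq_nonneg b) (by simpa using hW.loHess _ v)
  hiHess w v := by
    simp only [smul_apply, inner_smul_left, RCLike.conj_to_real]
    exact (mul_le_of_le_one_left (by simpa using hW.loHess _ v) (pow_le_one₀ hb hb1)).trans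
      (hW.hiHess _ v)

lemma exp_neg_comp_le (hW : IsPot W G H 0 η) {κ b : ℝ} (hκ : 0 ≤ κ) (hκ1 : κ ≤ 1) (hb : 0 ≤ b)
    (hb1 : b ≤ 1) {x w : Sp d} {R : ℝ} (hx : ‖x‖ ≤ R) :
    exp (-W (κ • x + b • w)) ≤ exp (-W 0) * exp (‖G 0‖ * R) * exp (‖G 0‖ * ‖w‖) := by
  rw [mul_assoc, ← exp_add (‖G 0‖ * R), ← exp_add]
  refine exp_le_exp.2 ?_
  have h := hW.lower le_rfl (κ • x + b • w)
  have hn : ‖κ • x + b • w‖ ≤ R + ‖w‖ := by
    refine (norm_add_le _ _).trans ?_
    rw [norm_smul, norm_smul, norm_eq_abs, norm_eq_abs, abs_of_nonneg hκ, abs_of_nonneg hb]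
    exact add_le_add ((mul_le_of_le_one_left (norm_nonneg _) hκ1).trans hx)
      (mul_le_of_le_one_left (norm_nonneg _) hb1)
  nlinarith [mul_le_mul_of_nonneg_left hn (norm_nonneg (G 0))]

lemma grad_comp_le (hW : IsPot W G H 0 η) {κ b : ℝ} (hκ : 0 ≤ κ) (hκ1 : κ ≤ 1) (hb : 0 ≤ b)
    (hb1 : b ≤ 1) {x w : Sp d} {R : ℝ} (hx : ‖x‖ ≤ R) :
    ‖G (κ • x + b • w)‖ ≤ (‖G 0‖ + |η| * (R + 1)) * exp ‖w‖ := by
  have hR : 0 ≤ R := (norm_nonneg _).trans hx
  have hn : ‖κ • x + b • w‖ ≤ R + ‖w‖ := by
    refine (norm_add_le _ _).trans ?_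
    rw [norm_smul, norm_smul, norm_eq_abs, norm_eq_abs, abs_of_nonneg hκ, abs_of_nonneg hb]
    exact add_le_add ((mul_le_of_le_one_left (norm_nonneg _) hκ1).trans hx)
      (mul_le_of_le_one_left (norm_nonneg _) hb1)
  refine (hW.grad_le le_rfl _).trans ?_
  have h1 := add_one_le_exp ‖w‖
  have h2 : η * ‖κ • x + b • w‖ ≤ |η| * (R + ‖w‖) :=
    mul_le_mul (le_abs_self η) hn (norm_nonneg _) (abs_nonneg _)
  nlinarith [mul_le_mul_of_nonneg_left (one_le_exp (norm_nonneg w))
      (mul_nonneg (abs_nonneg η) hR), mul_le_mul_of_nonneg_left h1 (abs_nonneg η),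
    mul_le_mul_of_nonneg_left (one_le_exp (norm_nonneg w)) (norm_nonneg (G 0)), abs_nonneg η]

/-- The smoothed target. -/
lemma smooth_spec (hW : IsPot W G H 0 η) (hη : η ≤ 1 / 2) {κ : ℝ} (hκ : 0 < κ) (hκ1 : κ ≤ 1) :
    ∃ Φ' : Sp d → Sp d, Continuous Φ' ∧
      (∀ x, HasFDerivAt (smPot κ W) (innerSL ℝ (Φ' x)) x) ∧
      (∀ x, ‖Φ' x - κ • pv κ G x‖ ≤ 4 * η * (‖G 0‖ + η * (√d + ‖x‖))) ∧
      ((gibbs W).prod (gd d)).map (fun p => κ • p.1 + √(1 - κ ^ 2) • p.2) =
        gibbs (smPot κ W) := by
  set b := √(1 - κ ^ 2) with hbdef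
  have hb : 0 ≤ b := sqrt_nonneg _
  have hsum : κ ^ 2 + b ^ 2 = 1 := by
    rw [hbdef, sq_sqrt (by nlinarith)]; ring
  have hb1 : b ≤ 1 := by nlinarith [sq_nonneg κ]
  have hWc := hW.contDiff.continuous
  have hGc := hW.continuous_grad
  set P := fun x : Sp d => ∫ w, exp (-W (κ • x + b • w)) ∂gd d with hP
  set N := fun x : Sp d => ∫ w, exp (-W (κ • x + b • w)) • G (κ • x + b • w) ∂gd d with hN
  set C1 := fun R : ℝ => exp (-W 0) * exp (‖G 0‖ * R)
  have hdomP : ∀ R x w, ‖x‖ ≤ R →
      ‖exp (-W (κ • x + b • w))‖ ≤ C1 R * exp (‖G 0‖ * ‖w‖) := fun R x w hx => by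
    rw [norm_eq_abs, abs_exp]; exact hW.exp_neg_comp_le hκ.le hκ1 hb hb1 hx
  have hdomN : ∀ R x w, ‖x‖ ≤ R → ‖exp (-W (κ • x + b • w)) • G (κ • x + b • w)‖ ≤
      C1 R * (‖G 0‖ + |η| * (R + 1)) * exp ((‖G 0‖ + 1) * ‖w‖) := fun R x w hx => by
    rw [norm_smul, norm_eq_abs, abs_exp, add_mul (‖G 0‖) 1, one_mul, exp_add]
    refine (mul_le_mul (hW.exp_neg_comp_le hκ.le hκ1 hb hb1 hx)
      (hW.grad_comp_le hκ.le hκ1 hb hb1 hx) (norm_nonneg _) (by positivity)).trans (le_of_eq ?_)
    simp only [C1]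
    ring
  have hPi : ∀ x, Integrable (fun w => exp (-W (κ • x + b • w))) (gd d) := fun x =>
    integrable_gam_of_le (by fun_prop) fun w => hdomP ‖x‖ x w le_rfl
  have hNi : ∀ x, Integrable (fun w => exp (-W (κ • x + b • w)) • G (κ • x + b • w)) (gd d) :=
    fun x => integrable_gam_of_le (by fun_prop) fun w => hdomN ‖x‖ x w le_rfl
  have hball : ∀ x y : Sp d, y ∈ Metric.ball x 1 → ‖y‖ ≤ ‖x‖ + 1 := fun x y hy => by
    rw [Metric.mem_ball, dist_eq_norm] at hy
    linarith [norm_sub_norm_le y x]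
  have hPc : Continuous P := continuous_iff_continuousAt.2 fun x =>
    continuousAt_of_dominated (μ := gd d) (bound := fun w => C1 (‖x‖ + 1) * exp (‖G 0‖ * ‖w‖))
      (Eventually.of_forall fun y => (hPi y).aestronglyMeasurable)
      (Filter.mem_of_superset (Metric.ball_mem_nhds x one_pos) fun y hy =>
        ae_of_all _ fun w => hdomP _ y w (hball x y hy))
      ((integrable_exp_norm_gam _).const_mul _)
      (ae_of_all _ fun w => Continuous.continuousAt (by fun_prop))
  have hNc : Continuous N := continuous_iff_continuousAt.2 fun x =>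
    continuousAt_of_dominated (μ := gd d)
      (bound := fun w => C1 (‖x‖ + 1) * (‖G 0‖ + |η| * (‖x‖ + 1 + 1)) * exp ((‖G 0‖ + 1) * ‖w‖))
      (Eventually.of_forall fun y => (hNi y).aestronglyMeasurable)
      (Filter.mem_of_superset (Metric.ball_mem_nhds x one_pos) fun y hy =>
        ae_of_all _ fun w => hdomN _ y w (hball x y hy))
      ((integrable_exp_norm_gam _).const_mul _)
      (ae_of_all _ fun w => Continuous.continuousAt (by fun_prop))
  have hPpos : ∀ x, 0 < P x := fun x => integral_exp_pos (hPi x)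
  have hPd : ∀ x, HasFDerivAt P (-(κ • innerSL ℝ (N x))) x := fun x => by
    have h := hasFDerivAt_integral_of_dominated_of_fderiv_le (μ := gd d) (𝕜 := ℝ)
      (F := fun y w => exp (-W (κ • y + b • w)))
      (F' := fun y w => -(κ • innerSL ℝ (exp (-W (κ • y + b • w)) • G (κ • y + b • w))))
      (x₀ := x) (bound := fun w =>
        C1 (‖x‖ + 1) * (‖G 0‖ + |η| * (‖x‖ + 1 + 1)) * exp ((‖G 0‖ + 1) * ‖w‖))
      (Metric.ball_mem_nhds x one_pos) (Eventually.of_forall fun y => (hPi y).aestronglyMeasurable)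
      (hPi x) (by fun_prop : Continuous _).aestronglyMeasurable
      (ae_of_all _ fun w y hy => ?_) ((integrable_exp_norm_gam _).const_mul _)
      (ae_of_all _ fun w y _ => ?_)
    · refine h.congr_fderiv ?_
      rw [integral_neg, integral_smul, (innerSL ℝ).integral_comp_comm (hNi x)]
    · rw [norm_neg, norm_smul, innerSL_apply_norm, norm_eq_abs, abs_of_pos hκ]
      exact (mul_le_of_le_one_left (norm_nonneg _) hκ1).trans (hdomN _ y w (hball x y hy))
    · have h1 : HasFDerivAt (fun y : Sp d => κ • y + b • w) (κ • ContinuousLinearMap.id ℝ (Sp d)) y :=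
        ((hasFDerivAt_id y).const_smul κ).add_const _
      refine (((hW.hasGrad _).comp y h1).neg.exp).congr_fderiv ?_
      ext v
      simp
      ring
  refine ⟨fun x => κ • (P x)⁻¹ • N x, ((hPc.inv₀ fun x => (hPpos x).ne').smul hNc).const_smul κ,
    fun x => ?_, fun x => ?_, ?_⟩
  · have e : smPot κ W = fun x => -log (P x) := rfl
    rw [e]
    refine (((hPd x).log (hPpos x).ne').neg).congr_fderiv ?_
    ext v
    simp
    ring
  · have hS := hW.slice (κ := κ) hb hb1 x
    have hμ : ∫ w, G (κ • x + b • w) ∂gibbs (fun w => W (κ • x + b • w)) = (P x)⁻¹ • N x := by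
      rw [gibbs, integral_tilted]
      simp only [hN, hP, div_eq_inv_mul, mul_smul, integral_smul]
    have e : κ • (P x)⁻¹ • N x - κ • pv κ G x
        = κ • ((∫ w, G (κ • x + b • w) ∂gibbs (fun w => W (κ • x + b • w)))
          - ∫ w, G (κ • x + b • w) ∂gd d) := by
      rw [hμ, smul_sub]; rfl
    rw [e, norm_smul, norm_eq_abs, abs_of_pos hκ]
    rcases Nat.eq_zero_or_pos d with rfl | hd
    · have h : ∀ v : Sp 0, v = 0 := fun v => Subsingleton.elim _ _
      rw [h ((∫ w, G (κ • x + b • w) ∂gibbs (fun w => W (κ • x + b • w)))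
          - ∫ w, G (κ • x + b • w) ∂gd 0)]
      simp [h x, h (G 0)]
    have hη0 : 0 ≤ η := by
      have h1 := (hW.loHess 0 (EuclideanSpace.single ⟨0, hd⟩ (1:ℝ))).trans
        (hW.hiHess 0 (EuclideanSpace.single ⟨0, hd⟩ (1:ℝ)))
      simpa using h1
    have hRHS : 0 ≤ 4 * η * (‖G 0‖ + η * (√d + ‖x‖)) := by positivity
    rcases eq_or_lt_of_le hb with hb0 | hbpos
    · have := hS.isProb le_rfl
      have hc : (fun w : Sp d => G (κ • x + b • w)) = fun _ => G (κ • x) :=
        funext fun w => by simp [← hb0]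
      simp only [hc, integral_const, probReal_univ, sub_self, norm_zero, mul_zero]
      exact hRHS
    have h := hS.tilt_norm hη
    rw [integral_smul, integral_smul, ← smul_sub, norm_smul, norm_eq_abs, abs_of_pos hbpos,
      smul_zero, add_zero] at h
    set X := ‖(∫ w, G (κ • x + b • w) ∂gibbs (fun w => W (κ • x + b • w)))
      - ∫ w, G (κ • x + b • w) ∂gd d‖
    set M := ‖G 0‖ + η * (√d + ‖x‖)
    have h2 : ‖b • G (κ • x)‖ + η * √d ≤ M := by
      rw [norm_smul, norm_eq_abs, abs_of_pos hbpos]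
      have h4 := hW.grad_le le_rfl (κ • x)
      rw [norm_smul, norm_eq_abs, abs_of_pos hκ] at h4
      nlinarith [mul_le_of_le_one_left (norm_nonneg (G (κ • x))) hb1,
        mul_le_mul_of_nonneg_left (mul_le_of_le_one_left (norm_nonneg x) hκ1) hη0]
    -- the slice has Hessian `b²η`: rerun the bound with that constant
    have hS2 : IsPot (fun w => W (κ • x + b • w)) (fun w => b • G (κ • x + b • w))
        (fun w => b ^ 2 • H (κ • x + b • w)) 0 (b ^ 2 * η) :=
      { hS with
        hiHess := fun w v => by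
          simp only [smul_apply, inner_smul_left, RCLike.conj_to_real]
          rw [mul_assoc]
          exact mul_le_mul_of_nonneg_left (hW.hiHess _ v) (sq_nonneg b) }
    have h5 := hS2.tilt_norm ((mul_le_of_le_one_left hη0 (pow_le_one₀ hb hb1)).trans hη)
    rw [integral_smul, integral_smul, ← smul_sub, norm_smul, norm_eq_abs, abs_of_pos hbpos,
      smul_zero, add_zero] at h5
    have h6 : ‖b • G (κ • x)‖ + b ^ 2 * η * √d ≤ M := by
      nlinarith [mul_le_of_le_one_left (show 0 ≤ η * √d by positivity) (pow_le_one₀ (n := 2) hb hb1)]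
    have hX : X ≤ 4 * η * M := by
      have : b * X ≤ b * (4 * η * M) := by
        refine h5.trans ?_
        calc 4 * (b ^ 2 * η) * (‖b • G (κ • x)‖ + b ^ 2 * η * √d)
            ≤ 4 * (b ^ 2 * η) * M := mul_le_mul_of_nonneg_left h6 (by positivity)
          _ = b * (4 * η * M) * b := by ring
          _ ≤ _ := mul_le_of_le_one_right (by positivity) hb1
      exact le_of_mul_le_mul_left this hbpos
    exact (mul_le_of_le_one_left (norm_nonneg _) hκ1).trans hX
  · -- the law
    have hp := hW.isProb le_rfl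
    have hmp := gauss_rotate (ι := Fin d) hsum
    have hKi : Integrable (fun p : Sp d × Sp d => exp (-W (κ • p.1 + b • p.2)))
        ((gd d).prod (gd d)) := by
      refine ((integrable_exp_norm_gam (ι := Fin d) ‖G 0‖).mul_prod
        (integrable_exp_norm_gam (ι := Fin d) ‖G 0‖)).const_mul (exp (-W 0)) |>.mono'
        (by fun_prop : Continuous _).aestronglyMeasurable (ae_of_all _ fun p => ?_)
      rw [norm_eq_abs, abs_exp, ← mul_assoc]
      exact hW.exp_neg_comp_le hκ.le hκ1 hb hb1 le_rfl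
    have hM : Measurable fun p : Sp d × Sp d => κ • p.1 + b • p.2 := by fun_prop
    have hexp : ∀ x, exp (-smPot κ W x) = P x := fun x => by
      show exp (-(-log (P x))) = _
      rw [neg_neg, exp_log (hPpos x)]
    have hsm : Integrable (fun x => exp (-smPot κ W x)) (gd d) := by
      simp only [hexp]; exact hKi.integral_prod_left
    refine Measure.ext fun s hs => ?_
    have hp' : IsProbabilityMeasure (gibbs (smPot κ W)) := isProbabilityMeasure_tilted hsm
    have hp'' : IsProbabilityMeasure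
        (((gibbs W).prod (gd d)).map fun p => κ • p.1 + b • p.2) :=
      Measure.isProbabilityMeasure_map hM.aemeasurable
    rw [← ENNReal.toReal_eq_toReal_iff' (measure_ne_top _ _) (measure_ne_top _ _),
      ← Measure.real, ← Measure.real, ← integral_indicator_one hs, ← integral_indicator_one hs]
    have hf : Measurable (s.indicator (1 : Sp d → ℝ)) := measurable_one.indicator hs
    have hf1 : ∀ x, ‖s.indicator (1 : Sp d → ℝ) x‖ ≤ 1 := fun x => by
      by_cases hxs : x ∈ s <;> simp [hxs]
    rw [integral_map hM.aemeasurable hf.aestronglyMeasurable]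
    set f := s.indicator (1 : Sp d → ℝ)
    have main : ∀ f : Sp d → ℝ, Measurable f → (∀ x, ‖f x‖ ≤ 1) →
        ∫ x, exp (-W x) * (∫ w, f (κ • x + b • w) ∂gd d) ∂gd d
          = ∫ x, P x * f x ∂gd d := by
      intro f hf hf1
      set K := fun p : Sp d × Sp d => exp (-W (κ • p.1 + b • p.2)) * f p.1
      have hK : Integrable K ((gd d).prod (gd d)) := by
        refine hKi.mul_bdd (c := 1) (hf.comp measurable_fst).aestronglyMeasurable
          (ae_of_all _ fun p => hf1 _)
      have hrot : ∀ p : Sp d × Sp d,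
          κ • (κ • p.1 + b • p.2) + b • (b • p.1 - κ • p.2) = p.1 := fun p => by
        rw [smul_add, smul_sub, smul_smul, smul_smul, smul_smul, smul_smul, mul_comm b κ,
          add_add_sub_cancel, ← add_smul, ← pow_two, ← pow_two, hsum, one_smul]
      have hK2 : Integrable (fun p : Sp d × Sp d => exp (-W p.1) * f (κ • p.1 + b • p.2))
          ((gd d).prod (gd d)) := by
        have := hmp.integrable_comp_of_integrable hK
        refine this.congr (ae_of_all _ fun p => ?_)
        simp only [K, Function.comp_apply, hrot]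
      calc ∫ x, exp (-W x) * (∫ w, f (κ • x + b • w) ∂gd d) ∂gd d
          = ∫ p : Sp d × Sp d, exp (-W p.1) * f (κ • p.1 + b • p.2) ∂(gd d).prod (gd d) := by
            rw [integral_prod _ hK2]
            simp only [integral_const_mul]
        _ = ∫ p, K p ∂(gd d).prod (gd d) := by
            conv_rhs => rw [← hmp.map_eq]
            rw [integral_map hmp.measurable.aemeasurable
              (hmp.map_eq.symm ▸ hK.aestronglyMeasurable)]
            simp only [K, hrot]
        _ = _ := by
            rw [integral_prod _ hK]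
            simp only [K, integral_mul_const]
            rfl
    have hfi : Integrable (fun p : Sp d × Sp d => f (κ • p.1 + b • p.2))
        ((gibbs W).prod (gd d)) :=
      (integrable_const (1:ℝ)).mono' (hf.comp hM).aestronglyMeasurable (ae_of_all _ fun p => hf1 _)
    rw [integral_prod _ hfi, integral_gibbs, integral_gibbs, main f hf hf1]
    have h1 := main (fun _ => (1:ℝ)) measurable_const (fun _ => by simp)
    simp only [integral_const, probReal_univ, smul_eq_mul, mul_one] at h1
    simp only [hexp, h1]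

end IsPot

end Vale.Agent.P347.Quarter
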