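import Vale.Agent.P347.Quarter.Gauss
import Vale.Agent.P347.Quarter.Smooth

/-! # P347: potentials with a bounded Hessian, and integrals against their tilts -/

open MeasureTheory ProbabilityTheory Real
open scoped RealInnerProductSpace

namespace Vale.Agent.P347.Quarter

variable {d : ℕ} {W : Sp d → ℝ} {G : Sp d → Sp d} {H : Sp d → Sp d →L[ℝ] Sp d} {lo η : ℝ}

namespace IsPot

lemma differentiable (hW : IsPot W G H lo η) : Differentiable ℝ W :=
  fun x => (hW.hasGrad x).differentiableAt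

lemma fderiv_eq (hW : IsPot W G H lo η) : fderiv ℝ W = fun x => innerSL ℝ (G x) :=
  funext fun x => (hW.hasGrad x).fderiv

lemma contDiff (hW : IsPot W G H lo η) : ContDiff ℝ 2 W := by
  rw [show (2 : WithTop ℕ∞) = 1 + 1 from rfl, contDiff_succ_iff_fderiv]
  refine ⟨hW.differentiable, by simp, ?_⟩
  rw [hW.fderiv_eq]
  exact (innerSL ℝ).contDiff.comp hW.contDiff_grad

/-- The Hessian of `x ↦ ‖x‖²/2 + W x` is at least `1 + lo`. -/
lemma hessGE_full (hW : IsPot W G H lo η) :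
    HessGE (fun x => 1 / 2 * ‖x‖ ^ 2 + W x) (1 + lo) := by
  intro x v
  have h1 : fderiv ℝ (fun x => 1 / 2 * ‖x‖ ^ 2 + W x) = fun z => innerSL ℝ (z + G z) := by
    funext z
    refine HasFDerivAt.fderiv ?_
    refine (((hasFDerivAt_id z).norm_sq.const_mul (1 / 2)).add (hW.hasGrad z)).congr_fderiv ?_
    ext w
    simp
  have h2 : HasFDerivAt (fun z => innerSL ℝ (z + G z))
      ((innerSL ℝ).comp (ContinuousLinearMap.id ℝ (Sp d) + H x)) x :=
    (innerSL ℝ).hasFDerivAt.comp x ((hasFDerivAt_id x).add (hW.hasHess x))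
  rw [iteratedFDeriv_two_apply, h1, h2.fderiv]
  simp only [Matrix.cons_val_zero, Matrix.cons_val_one]
  change _ ≤ ⟪v + H x v, v⟫
  rw [inner_add_left, real_inner_self_eq_norm_sq]
  linarith [hW.loHess x v]

lemma contDiff_full (hW : IsPot W G H lo η) :
    ContDiff ℝ 2 fun x => 1 / 2 * ‖x‖ ^ 2 + W x :=
  contDiff_half_sq.add hW.contDiff

/-- A nonnegative symmetric Hessian is bounded in operator norm. -/
lemma hess_apply_le (hW : IsPot W G H lo η) (hlo : 0 ≤ lo) (x v : Sp d) :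
    ‖H x v‖ ≤ η * ‖v‖ := by
  rcases eq_or_ne v 0 with rfl | hv
  · simp
  have hv2 : 0 < ‖v‖ ^ 2 := by positivity
  have hpos : ∀ u, 0 ≤ ⟪H x u, u⟫ := fun u =>
    le_trans (by positivity) (hW.loHess x u)
  have hη : 0 ≤ η := by
    have := (hpos v).trans (hW.hiHess x v)
    exact nonneg_of_mul_nonneg_left this hv2
  have key : ∀ c : ℝ, η < c → ‖H x v‖ ≤ c * ‖v‖ := by
    intro c hc
    have hc0 : 0 < c := hη.trans_lt hc
    have h := hpos (c • v - H x v)
    have e : ⟪H x (c • v - H x v), c • v - H x v⟫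
        = c ^ 2 * ⟪H x v, v⟫ - 2 * c * ‖H x v‖ ^ 2 + ⟪H x (H x v), H x v⟫ := by
      simp only [map_sub, map_smul, inner_sub_left, inner_sub_right, inner_smul_left,
        inner_smul_right, RCLike.conj_to_real]
      rw [hW.symHess x (H x v) v, real_inner_self_eq_norm_sq]
      ring
    rw [e] at h
    have h1 := hW.hiHess x (H x v)
    have h2 := hW.hiHess x v
    have h3 : c * ‖H x v‖ ^ 2 ≤ c * (c ^ 2 * ‖v‖ ^ 2) := by
      nlinarith [mul_le_mul_of_nonneg_left h2 (sq_nonneg c), sq_nonneg ‖H x v‖,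
        mul_le_mul_of_nonneg_right hc.le (sq_nonneg ‖H x v‖),
        mul_le_mul_of_nonneg_left (mul_le_mul_of_nonneg_right hc.le hv2.le) (sq_nonneg c)]
    have h4 : ‖H x v‖ ^ 2 ≤ (c * ‖v‖) ^ 2 := by
      rw [mul_pow]; exact le_of_mul_le_mul_left h3 hc0
    exact (pow_le_pow_iff_left₀ (norm_nonneg _) (by positivity) two_ne_zero).1 h4
  refine le_of_forall_pos_le_add fun e he => ?_
  have h := key (η + e / (‖v‖ + 1)) (by
    have : 0 < e / (‖v‖ + 1) := by positivity
    linarith)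
  refine h.trans ?_
  have : e / (‖v‖ + 1) * ‖v‖ ≤ e := by
    rw [div_mul_eq_mul_div, div_le_iff₀ (by positivity)]
    nlinarith [norm_nonneg v]
  linarith

/-- The gradient is Lipschitz. -/
lemma grad_lip (hW : IsPot W G H lo η) (hlo : 0 ≤ lo) (x y : Sp d) :
    ‖G x - G y‖ ≤ η * ‖x - y‖ := by
  have hd : ∀ t : ℝ, HasDerivAt (fun t : ℝ => G (y + t • (x - y))) (H (y + t • (x - y)) (x - y)) t :=
    fun t => by
      have h1 : HasDerivAt (fun t : ℝ => y + t • (x - y)) (x - y) t := by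
        simpa using ((hasDerivAt_id t).smul_const (x - y)).const_add y
      exact (hW.hasHess _).comp_hasDerivAt t h1
  have h := norm_image_sub_le_of_norm_deriv_le_segment_01'
    (f := fun t : ℝ => G (y + t • (x - y))) (fun t _ => (hd t).hasDerivWithinAt)
    (fun t _ => hW.hess_apply_le hlo _ _)
  simpa using h

lemma grad_le (hW : IsPot W G H lo η) (hlo : 0 ≤ lo) (x : Sp d) :
    ‖G x‖ ≤ ‖G 0‖ + η * ‖x‖ := by
  have h := hW.grad_lip hlo x 0
  rw [sub_zero] at h
  linarith [norm_sub_norm_le (G x) (G 0)]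

lemma fderiv_norm (hW : IsPot W G H lo η) (x : Sp d) : ‖fderiv ℝ W x‖ = ‖G x‖ := by
  rw [(hW.hasGrad x).fderiv, innerSL_apply_norm]

/-- The tangent line at the origin is below. -/
lemma lower (hW : IsPot W G H lo η) (hlo : 0 ≤ lo) (x : Sp d) :
    W 0 - ‖G 0‖ * ‖x‖ ≤ W x := by
  have h := hW.hessGE_full.tangent hW.contDiff_full 0 x
  have h1 : fderiv ℝ (fun x => 1 / 2 * ‖x‖ ^ 2 + W x) 0 x = ⟪G 0, x⟫ := by
    have h' : HasFDerivAt (fun x => 1 / 2 * ‖x‖ ^ 2 + W x) _ 0 :=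
      ((hasFDerivAt_id (0 : Sp d)).norm_sq.const_mul (1 / 2)).add (hW.hasGrad 0)
    rw [h'.fderiv]
    simp
  rw [h1] at h
  simp only [zero_add, norm_zero] at h
  have h2 := (abs_le.1 (abs_real_inner_le_norm (G 0) x)).1
  nlinarith [mul_nonneg hlo (sq_nonneg ‖x‖)]

lemma exp_neg_le (hW : IsPot W G H lo η) (hlo : 0 ≤ lo) (x : Sp d) :
    exp (-W x) ≤ exp (-W 0) * exp (‖G 0‖ * ‖x‖) := by
  rw [← exp_add]
  exact exp_le_exp.2 (by linarith [hW.lower hlo x])

lemma integrable_exp_neg (hW : IsPot W G H lo η) (hlo : 0 ≤ lo) :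
    Integrable (fun x => exp (-W x)) (gd d) :=
  integrable_gam_of_le (continuous_exp.comp hW.contDiff.continuous.neg)
    fun x => by rw [norm_eq_abs, abs_exp]; exact hW.exp_neg_le hlo x

lemma integral_exp_neg_pos (hW : IsPot W G H lo η) (hlo : 0 ≤ lo) :
    0 < ∫ x, exp (-W x) ∂gd d :=
  integral_exp_pos (hW.integrable_exp_neg hlo)

/-- Integrals against the tilt. -/
lemma integral_gibbs (f : Sp d → ℝ) :
    ∫ x, f x ∂gibbs W = (∫ x, exp (-W x) * f x ∂gd d) / ∫ x, exp (-W x) ∂gd d := by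
  rw [gibbs, integral_tilted, ← integral_div]
  refine integral_congr_ae (ae_of_all _ fun x => ?_)
  simp only [smul_eq_mul]
  ring

lemma integrable_gibbs_of_le (hW : IsPot W G H lo η) (hlo : 0 ≤ lo) {F : Type*}
    [NormedAddCommGroup F] [NormedSpace ℝ F] [SecondCountableTopology F]
    {f : Sp d → F} (hf : Continuous f) {C K : ℝ} (hb : ∀ x, ‖f x‖ ≤ C * exp (K * ‖x‖)) :
    Integrable f (gibbs W) := by
  rw [gibbs, integrable_tilted_iff (hW.integrable_exp_neg hlo)]
  refine integrable_gam_of_le (f := fun x => exp (-W x) • f x)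
    ((continuous_exp.comp hW.contDiff.continuous.neg).smul hf)
    (C := exp (-W 0) * C) (K := ‖G 0‖ + K) fun x => ?_
  rw [norm_smul, norm_eq_abs, abs_exp]
  refine (mul_le_mul (hW.exp_neg_le hlo x) (hb x) (norm_nonneg _) (by positivity)).trans
    (le_of_eq ?_)
  rw [add_mul, exp_add]
  ring

lemma isProb (hW : IsPot W G H lo η) (hlo : 0 ≤ lo) : IsProbabilityMeasure (gibbs W) :=
  isProbabilityMeasure_tilted (hW.integrable_exp_neg hlo)

/-- Poincaré, with integrability assumed. -/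
lemma poincare (hW : IsPot W G H lo η) (hlo : 0 ≤ lo) {f : Sp d → ℝ} (hf : ContDiff ℝ 1 f)
    (h2 : Integrable (fun x => f x ^ 2) (gibbs W))
    (hD : Integrable (fun x => ‖fderiv ℝ f x‖ ^ 2) (gibbs W)) :
    ∫ x, f x ^ 2 ∂gibbs W - (∫ x, f x ∂gibbs W) ^ 2
      ≤ (1 + lo)⁻¹ * ∫ x, ‖fderiv ℝ f x‖ ^ 2 ∂gibbs W := by
  set c : ℝ := (√(2 * π))⁻¹ ^ d with hc
  have hc0 : 0 < c := by positivity
  set U := fun x : Sp d => 1 / 2 * ‖x‖ ^ 2 + W x
  have e : ∀ (g : Sp d → ℝ), (fun x => gdensity x * (exp (-W x) * g x))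
      = fun x => c * (exp (-U x) * g x) := fun g => funext fun x => by
    simp only [gdensity, U, hc, Fintype.card_fin, neg_add, exp_add, neg_mul]
    ring
  have hint : ∀ g : Sp d → ℝ, Integrable g (gibbs W) →
      Integrable fun x => exp (-U x) * g x := fun g hg => by
    rw [gibbs, integrable_tilted_iff (hW.integrable_exp_neg hlo)] at hg
    have := integrable_gam_iff.1 hg
    simp only [smul_eq_mul, e] at this
    simpa [inv_mul_cancel_left₀ hc0.ne'] using this.const_mul c⁻¹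
  have h := hW.hessGE_full.poincare hW.contDiff_full (by linarith) hf (hint _ h2) (hint _ hD)
  have hI : ∀ g : Sp d → ℝ,
      ∫ x, exp (-W x) * g x ∂gd d = c * ∫ x, exp (-U x) * g x := fun g => by
    rw [integral_gam, e, integral_const_mul]
  have hZ : ∫ x, exp (-W x) ∂gd d = c * ∫ x, exp (-U x) := by simpa using hI fun _ => 1
  have hZpos := hW.integral_exp_neg_pos hlo
  rw [hZ] at hZpos
  simp only [integral_gibbs, hI, hZ]
  set Z := ∫ x, exp (-U x)
  set A := ∫ x, exp (-U x) * f x ^ 2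
  set B := ∫ x, exp (-U x) * f x
  set D := ∫ x, exp (-U x) * ‖fderiv ℝ f x‖ ^ 2
  have hZ0 : 0 < Z := pos_of_mul_pos_right hZpos hc0.le
  calc c * A / (c * Z) - (c * B / (c * Z)) ^ 2 = (Z * A - B ^ 2) / Z ^ 2 := by field_simp
    _ ≤ Z * (D / (1 + lo)) / Z ^ 2 := by gcongr
    _ = _ := by field_simp

end IsPot

end Vale.Agent.P347.Quarter
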