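import Vale.Agent.P347.Quarter.Tilt.Basic

/-! # P347: the interpolation `t ↦ gibbs (t W)` -/

open MeasureTheory ProbabilityTheory Real Filter
open scoped RealInnerProductSpace Topology

namespace Vale.Agent.P347.Quarter

variable {d : ℕ} {W : Sp d → ℝ} {G : Sp d → Sp d} {H : Sp d → Sp d →L[ℝ] Sp d} {lo η : ℝ}

lemma le_two_exp (r : ℝ) (hr : 0 ≤ r) : 1 + r + r ^ 2 ≤ 3 * exp r := by
  have h1 := quadratic_le_exp_of_nonneg hr
  have h2 := add_one_le_exp r
  nlinarith [exp_pos r]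

lemma exp_split (p q r : ℝ) : exp ((p + q + 1) * r) = exp (p * r) * exp (q * r) * exp r := by
  rw [← exp_add, ← exp_add]; ring_nf

namespace IsPot

lemma ibp (hW : IsPot W G H lo η) (hlo : 0 ≤ lo) {F : Sp d → ℝ} (hF : ContDiff ℝ 1 F)
    {C K : ℝ} (h0 : ∀ x, |F x| ≤ C * exp (K * ‖x‖))
    (h1 : ∀ x, ‖fderiv ℝ F x‖ ≤ C * exp (K * ‖x‖)) (v : Sp d) :
    ∫ x, fderiv ℝ F x v ∂gibbs W = ∫ x, F x * ⟪x + G x, v⟫ ∂gibbs W := by
  have hC : 0 ≤ C := nonneg_of_mul_nonneg_left ((abs_nonneg _).trans (h0 0)) (exp_pos _)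
  have hG := hW.continuous_grad
  set E := fun x => exp (-W x)
  have hE : ∀ x, HasFDerivAt E (-E x • innerSL ℝ (G x)) x := fun x => by
    refine ((hW.hasGrad x).neg.exp).congr_fderiv ?_
    simp [E, neg_smul]
  have hEc : ContDiff ℝ 1 E :=
    (Real.contDiff_exp.comp hW.contDiff.neg).of_le (by norm_num)
  have hP : ∀ x, fderiv ℝ (fun y => F y * E y) x
      = F x • (-E x • innerSL ℝ (G x)) + E x • fderiv ℝ F x := fun x =>
    ((hF.differentiable one_ne_zero x).hasFDerivAt.mul (hE x)).fderiv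
  have hGb : ∀ x, ‖G x‖ ≤ (‖G 0‖ + |η|) * exp ‖x‖ := fun x => by
    refine (hW.grad_le hlo x).trans ?_
    nlinarith [add_one_le_exp ‖x‖, le_abs_self η, abs_nonneg η, norm_nonneg (G 0), norm_nonneg x,
      mul_le_mul_of_nonneg_right (le_abs_self η) (norm_nonneg x)]
  set C₁ := exp (-W 0) * C * (1 + (‖G 0‖ + |η|)) with hC₁
  have hmain := gauss_ibp (F := fun y => F y * E y) (hF.mul hEc) (C := C₁) (K := K + ‖G 0‖ + 1)
    (fun x => ?_) (fun x => ?_) v
  · have e1 : ∫ x, fderiv ℝ (fun y => F y * E y) x v ∂gd d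
        = (∫ x, E x * fderiv ℝ F x v ∂gd d) - ∫ x, E x * (F x * ⟪G x, v⟫) ∂gd d := by
      have i1 : Integrable (fun x => E x * fderiv ℝ F x v) (gd d) :=
        integrable_gam_of_le (hEc.continuous.mul
          ((hF.continuous_fderiv one_ne_zero).clm_apply continuous_const))
          (C := exp (-W 0) * (C * ‖v‖)) (K := ‖G 0‖ + K) fun x => by
          rw [norm_mul, norm_eq_abs, abs_exp, add_mul, exp_add]
          calc E x * ‖fderiv ℝ F x v‖ ≤ (exp (-W 0) * exp (‖G 0‖ * ‖x‖)) *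
                ((C * exp (K * ‖x‖)) * ‖v‖) :=
                mul_le_mul (hW.exp_neg_le hlo x) (((fderiv ℝ F x).le_opNorm v).trans
                  (mul_le_mul_of_nonneg_right (h1 x) (norm_nonneg _))) (norm_nonneg _)
                  (by positivity)
            _ = _ := by ring
      have i2 : Integrable (fun x => E x * (F x * ⟪G x, v⟫)) (gd d) :=
        integrable_gam_of_le (hEc.continuous.mul (hF.continuous.mul (hG.inner continuous_const)))
          (C := exp (-W 0) * (C * ((‖G 0‖ + |η|) * ‖v‖))) (K := ‖G 0‖ + K + 1) fun x => by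
          rw [norm_mul, norm_mul, norm_eq_abs, norm_eq_abs, norm_eq_abs, abs_exp, exp_split]
          calc E x * (|F x| * |⟪G x, v⟫|) ≤ (exp (-W 0) * exp (‖G 0‖ * ‖x‖)) *
                ((C * exp (K * ‖x‖)) * ((‖G 0‖ + |η|) * exp ‖x‖ * ‖v‖)) :=
                mul_le_mul (hW.exp_neg_le hlo x) (mul_le_mul (h0 x)
                  ((abs_real_inner_le_norm _ _).trans
                    (mul_le_mul_of_nonneg_right (hGb x) (norm_nonneg _))) (abs_nonneg _)
                  (mul_nonneg hC (exp_pos _).le)) (by positivity) (by positivity)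
            _ = _ := by ring
      rw [← integral_sub i1 i2]
      refine integral_congr_ae (ae_of_all _ fun x => ?_)
      beta_reduce
      rw [hP]
      simp
      ring
    rw [e1] at hmain
    rw [integral_gibbs, integral_gibbs]
    congr 1
    have i3 : Integrable (fun x => E x * (F x * ⟪G x, v⟫)) (gd d) :=
      integrable_gam_of_le (hEc.continuous.mul (hF.continuous.mul (hG.inner continuous_const)))
        (C := exp (-W 0) * (C * ((‖G 0‖ + |η|) * ‖v‖))) (K := ‖G 0‖ + K + 1) fun x => by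
        rw [norm_mul, norm_mul, norm_eq_abs, norm_eq_abs, norm_eq_abs, abs_exp, exp_split]
        calc E x * (|F x| * |⟪G x, v⟫|) ≤ (exp (-W 0) * exp (‖G 0‖ * ‖x‖)) *
              ((C * exp (K * ‖x‖)) * ((‖G 0‖ + |η|) * exp ‖x‖ * ‖v‖)) :=
              mul_le_mul (hW.exp_neg_le hlo x) (mul_le_mul (h0 x)
                ((abs_real_inner_le_norm _ _).trans
                  (mul_le_mul_of_nonneg_right (hGb x) (norm_nonneg _))) (abs_nonneg _)
                (mul_nonneg hC (exp_pos _).le)) (by positivity) (by positivity)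
          _ = _ := by ring
    have i4 : Integrable (fun x => F x * E x * ⟪x, v⟫) (gd d) :=
      integrable_gam_of_le ((hF.continuous.mul hEc.continuous).mul
          (continuous_id.inner continuous_const))
        (C := exp (-W 0) * (C * ‖v‖)) (K := ‖G 0‖ + K + 1) fun x => by
        rw [norm_mul, norm_mul, norm_eq_abs, norm_eq_abs, norm_eq_abs, abs_exp, exp_split]
        calc |F x| * E x * |⟪x, v⟫| ≤ (C * exp (K * ‖x‖)) *
              (exp (-W 0) * exp (‖G 0‖ * ‖x‖)) * (exp ‖x‖ * ‖v‖) := by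
              refine mul_le_mul (mul_le_mul (h0 x) (hW.exp_neg_le hlo x) (exp_pos _).le
                (mul_nonneg hC (exp_pos _).le)) ((abs_real_inner_le_norm _ _).trans
                  (mul_le_mul_of_nonneg_right ?_ (norm_nonneg _))) (abs_nonneg _) (by positivity)
              linarith [add_one_le_exp ‖x‖]
          _ = _ := by ring
    rw [show (fun x => exp (-W x) * (F x * ⟪x + G x, v⟫))
        = fun x => F x * E x * ⟪x, v⟫ + E x * (F x * ⟪G x, v⟫) from funext fun x => by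
          simp [inner_add_left, E]; ring, integral_add i4 i3]
    linarith [hmain]
  · rw [hC₁, abs_mul, abs_exp]
    calc |F x| * E x ≤ C * exp (K * ‖x‖) * (exp (-W 0) * exp (‖G 0‖ * ‖x‖)) :=
          mul_le_mul (h0 x) (hW.exp_neg_le hlo x) (exp_pos _).le (mul_nonneg hC (exp_pos _).le)
      _ ≤ C * exp (K * ‖x‖) * (exp (-W 0) * exp (‖G 0‖ * ‖x‖)) *
            ((1 + (‖G 0‖ + |η|)) * exp (1 * ‖x‖)) := by
          refine le_mul_of_one_le_right (by positivity) ?_
          exact one_le_mul_of_one_le_of_one_le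
            (by linarith [norm_nonneg (G 0), abs_nonneg η])
            (one_le_exp (by positivity))
      _ = _ := by rw [exp_split, one_mul]; ring
  · rw [hP, hC₁]
    refine (norm_add_le _ _).trans ?_
    simp only [norm_smul, norm_neg, norm_eq_abs, innerSL_apply_norm]
    rw [abs_exp, exp_split]
    have a1 : |F x| * (E x * ‖G x‖) ≤ C * exp (K * ‖x‖) *
        ((exp (-W 0) * exp (‖G 0‖ * ‖x‖)) * ((‖G 0‖ + |η|) * exp ‖x‖)) :=
      mul_le_mul (h0 x) (mul_le_mul (hW.exp_neg_le hlo x) (hGb x) (norm_nonneg _) (by positivity))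
        (by positivity) (mul_nonneg hC (exp_pos _).le)
    have a2 : E x * ‖fderiv ℝ F x‖ ≤ exp (-W 0) * exp (‖G 0‖ * ‖x‖) * (C * exp (K * ‖x‖)) :=
      mul_le_mul (hW.exp_neg_le hlo x) (h1 x) (norm_nonneg _) (by positivity)
    have a3 : exp (-W 0) * exp (‖G 0‖ * ‖x‖) * (C * exp (K * ‖x‖)) ≤
        exp (-W 0) * exp (‖G 0‖ * ‖x‖) * (C * exp (K * ‖x‖)) * exp ‖x‖ :=
      le_mul_of_one_le_right (by positivity) (one_le_exp (norm_nonneg _))
    calc |F x| * (E x * ‖G x‖) + E x * ‖fderiv ℝ F x‖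
        ≤ _ + _ := add_le_add a1 (a2.trans a3)
      _ = _ := by ring

/-- The mean. -/
lemma mean (hW : IsPot W G H lo η) (hlo : 0 ≤ lo) :
    ∫ x, x ∂gibbs W = -∫ x, G x ∂gibbs W := by
  have hx : Integrable (fun x : Sp d => x) (gibbs W) :=
    hW.integrable_gibbs_of_le hlo continuous_id (C := 1) (K := 1) fun x => by
      simp only [one_mul]; linarith [add_one_le_exp ‖x‖]
  have hG : Integrable G (gibbs W) :=
    hW.integrable_gibbs_of_le hlo hW.continuous_grad (C := ‖G 0‖ + |η|) (K := 1) fun x => by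
      rw [one_mul]
      refine (hW.grad_le hlo x).trans ?_
      nlinarith [add_one_le_exp ‖x‖, le_abs_self η, abs_nonneg η, norm_nonneg (G 0), norm_nonneg x,
        mul_le_mul_of_nonneg_right (le_abs_self η) (norm_nonneg x)]
  rw [eq_neg_iff_add_eq_zero, ← integral_add hx hG]
  refine ext_inner_left ℝ fun v => ?_
  rw [inner_zero_right, ← integral_inner (f := fun x => x + G x) (hx.add hG) v]
  have h := hW.ibp hlo (F := fun _ => (1:ℝ)) contDiff_const (C := 1) (K := 0)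
    (fun x => by simp) (fun x => by simp) v
  simp only [fderiv_const_apply, zero_apply, integral_zero, one_mul] at h
  rw [h]
  refine integral_congr_ae (ae_of_all _ fun x => ?_)
  exact real_inner_comm _ _

/-- Scaling a potential by `t ∈ [0,1]`. -/
lemma scale (hW : IsPot W G H 0 η) {t : ℝ} (h0 : 0 ≤ t) (h1 : t ≤ 1) :
    IsPot (fun x => t * W x) (fun x => t • G x) (fun x => t • H x) 0 η where
  hasGrad x := by
    refine ((hW.hasGrad x).const_mul t).congr_fderiv ?_
    simp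
  hasHess x := (hW.hasHess x).const_smul t
  contHess := hW.contHess.const_smul t
  symHess x u v := by simp [inner_smul_left, inner_smul_right, hW.symHess x u v]
  loHess x v := by
    simp only [zero_mul, smul_apply, inner_smul_left, RCLike.conj_to_real]
    exact mul_nonneg h0 (by simpa using hW.loHess x v)
  hiHess x v := by
    simp only [smul_apply, inner_smul_left, RCLike.conj_to_real]
    exact (mul_le_of_le_one_left (by simpa using hW.loHess x v) h1).trans (hW.hiHess x v)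

/-- `E‖x‖²` under a tilt. -/
lemma second_moment (hW : IsPot W G H 0 η) (hη : η ≤ 1 / 2) :
    ∫ x, ‖x‖ ^ 2 ∂gibbs W ≤ 2 * d + 4 * ‖G 0‖ ^ 2 := by
  have := hW.isProb le_rfl
  have hsq : Integrable (fun x : Sp d => ‖x‖ ^ 2) (gibbs W) :=
    hW.integrable_gibbs_of_le le_rfl (continuous_norm.pow 2) (C := 3) (K := 1) fun x => by
      rw [norm_pow, norm_norm, one_mul]
      nlinarith [le_two_exp ‖x‖ (norm_nonneg x), norm_nonneg x]
  have hn : Integrable (fun x : Sp d => ‖x‖) (gibbs W) :=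
    hW.integrable_gibbs_of_le le_rfl continuous_norm (C := 1) (K := 1) fun x => by
      rw [norm_norm, one_mul, one_mul]; linarith [add_one_le_exp ‖x‖]
  have hx : Integrable (fun x : Sp d => x) (gibbs W) :=
    hW.integrable_gibbs_of_le le_rfl continuous_id (C := 1) (K := 1) fun x => by
      simp only [one_mul]; linarith [add_one_le_exp ‖x‖]
  set m1 := ∫ x, ‖x‖ ∂gibbs W
  set M := ∫ x, ‖x‖ ^ 2 ∂gibbs W
  have hm1 : m1 ^ 2 ≤ M := by
    have h : 0 ≤ ∫ x, (‖x‖ - m1) ^ 2 ∂gibbs W := integral_nonneg fun x => sq_nonneg _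
    have e : (fun x : Sp d => (‖x‖ - m1) ^ 2)
        = fun x => (‖x‖ ^ 2 - 2 * m1 * ‖x‖) + m1 ^ 2 := funext fun x => by ring
    have i1 : Integrable (fun x : Sp d => ‖x‖ ^ 2 - 2 * m1 * ‖x‖) (gibbs W) :=
      hsq.sub (hn.const_mul _)
    rw [e, integral_add i1 (integrable_const _), integral_sub hsq (hn.const_mul _),
      integral_const_mul] at h
    simp at h
    nlinarith
  have hmean : ‖∫ x, x ∂gibbs W‖ ≤ ‖G 0‖ + η * m1 := by
    rw [hW.mean le_rfl, norm_neg]
    refine (norm_integral_le_integral_norm _).trans ?_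
    calc ∫ x, ‖G x‖ ∂gibbs W ≤ ∫ x, (‖G 0‖ + η * ‖x‖) ∂gibbs W :=
          integral_mono_of_nonneg (ae_of_all _ fun x => norm_nonneg _)
            ((integrable_const _).add (hn.const_mul _)) (ae_of_all _ fun x => hW.grad_le le_rfl x)
      _ = _ := by rw [integral_add (integrable_const _) (hn.const_mul _), integral_const_mul]; simp [m1]
  have hvar : M - ‖∫ x, x ∂gibbs W‖ ^ 2 ≤ d := by
    have hc : ∀ i, Integrable (fun x : Sp d => x i ^ 2) (gibbs W) := fun i =>
      hsq.mono' (by fun_prop : Continuous fun x : Sp d => x i ^ 2).aestronglyMeasurable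
        (ae_of_all _ fun x => by
          rw [norm_pow]; exact pow_le_pow_left₀ (norm_nonneg _) (PiLp.norm_apply_le x i) 2)
    have hone : ∀ i, ∫ x : Sp d, x i ^ 2 ∂gibbs W - (∫ x : Sp d, x i ∂gibbs W) ^ 2 ≤ 1 := fun i => by
      have hl : ∀ x : Sp d, ‖fderiv ℝ (fun x : Sp d => x i) x‖ ≤ 1 := fun x => by
        rw [show (fun x : Sp d => x i) = EuclideanSpace.proj (𝕜 := ℝ) i from rfl,
          ContinuousLinearMap.fderiv]
        exact ContinuousLinearMap.opNorm_le_bound _ zero_le_one fun v => by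
          simpa using PiLp.norm_apply_le v i
      have hc1 : ContDiff ℝ 1 fun x : Sp d => x i := (EuclideanSpace.proj (𝕜 := ℝ) i).contDiff
      have hD : Integrable (fun x => ‖fderiv ℝ (fun x : Sp d => x i) x‖ ^ 2) (gibbs W) :=
        (integrable_const (1:ℝ)).mono'
          ((hc1.continuous_fderiv one_ne_zero).norm.pow 2).aestronglyMeasurable
          (ae_of_all _ fun x => by
            rw [norm_pow, norm_norm]; exact pow_le_one₀ (norm_nonneg _) (hl x))
      refine (hW.poincare le_rfl hc1 (hc i) hD).trans ?_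
      simp only [add_zero, inv_one, one_mul]
      refine (integral_mono hD (integrable_const (1:ℝ)) fun x => ?_).trans (by simp)
      exact pow_le_one₀ (norm_nonneg _) (hl x)
    have hco : ∀ i, (∫ x : Sp d, x ∂gibbs W) i = ∫ x : Sp d, x i ∂gibbs W := fun i =>
      ((EuclideanSpace.proj (𝕜 := ℝ) i).integral_comp_comm hx).symm
    have e1 : M = ∑ i, ∫ x : Sp d, x i ^ 2 ∂gibbs W := by
      rw [← integral_finsetSum _ fun i _ => hc i]
      exact integral_congr_ae (ae_of_all _ fun x => by simp [EuclideanSpace.norm_sq_eq])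
    have e2 : ‖∫ x, x ∂gibbs W‖ ^ 2 = ∑ i, (∫ x : Sp d, x i ∂gibbs W) ^ 2 := by
      simp [EuclideanSpace.norm_sq_eq, hco]
    rw [e1, e2, ← Finset.sum_sub_distrib]
    exact (Finset.sum_le_sum fun i _ => hone i).trans (by simp)
  have h2 := pow_le_pow_left₀ (norm_nonneg _) hmean 2
  rcases le_or_gt 0 η with h0 | h0
  · nlinarith [mul_le_mul_of_nonneg_right (pow_le_pow_left₀ h0 hη 2) (sq_nonneg m1),
      sq_nonneg (‖G 0‖ - η * m1)]
  · have hz : ∀ x : Sp d, x = 0 := fun x => by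
      by_contra hne
      have h3 := hW.loHess 0 x
      have h4 := hW.hiHess 0 x
      nlinarith [mul_neg_of_neg_of_pos h0 (show (0:ℝ) < ‖x‖ ^ 2 by positivity)]
    have : M = 0 := by
      simp only [M]
      exact integral_eq_zero_of_ae (ae_of_all _ fun x => by simp [hz x])
    rw [this]
    positivity

end IsPot

/-- Cauchy–Schwarz for a covariance. -/
lemma cov_sq_le {α : Type*} [MeasurableSpace α] {ν : Measure α} [IsProbabilityMeasure ν]
    {f g : α → ℝ} (hf : Integrable f ν) (hg : Integrable g ν)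
    (hf2 : Integrable (fun x => f x ^ 2) ν) (hg2 : Integrable (fun x => g x ^ 2) ν)
    (hfg : Integrable (fun x => f x * g x) ν) :
    (∫ x, f x * g x ∂ν - (∫ x, f x ∂ν) * ∫ x, g x ∂ν) ^ 2
      ≤ (∫ x, f x ^ 2 ∂ν - (∫ x, f x ∂ν) ^ 2) * (∫ x, g x ^ 2 ∂ν - (∫ x, g x ∂ν) ^ 2) := by
  set a := ∫ x, f x ∂ν with ha
  set b := ∫ x, g x ∂ν with hb
  have hcs : ∀ s : ℝ, 0 ≤ (∫ x, f x ^ 2 ∂ν - a ^ 2) * (s * s)
      + 2 * (∫ x, f x * g x ∂ν - a * b) * s + (∫ x, g x ^ 2 ∂ν - b ^ 2) := fun s => by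
    have h : 0 ≤ ∫ x, (s * (f x - a) + (g x - b)) ^ 2 ∂ν := integral_nonneg fun x => sq_nonneg _
    have e : (fun x => (s * (f x - a) + (g x - b)) ^ 2) = fun x =>
        ((s ^ 2 * f x ^ 2 + 2 * s * (f x * g x)) + g x ^ 2)
          + ((-2 * s ^ 2 * a - 2 * s * b) * f x + (-2 * s * a - 2 * b) * g x)
          + (s * a + b) ^ 2 := funext fun x => by ring
    have j1 : Integrable (fun x => s ^ 2 * f x ^ 2 + 2 * s * (f x * g x)) ν :=
      (hf2.const_mul _).add (hfg.const_mul _)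
    have j2 : Integrable (fun x => s ^ 2 * f x ^ 2 + 2 * s * (f x * g x) + g x ^ 2) ν := j1.add hg2
    have j3 : Integrable (fun x =>
        (-2 * s ^ 2 * a - 2 * s * b) * f x + (-2 * s * a - 2 * b) * g x) ν :=
      (hf.const_mul _).add (hg.const_mul _)
    have j4 : Integrable (fun x => s ^ 2 * f x ^ 2 + 2 * s * (f x * g x) + g x ^ 2
        + ((-2 * s ^ 2 * a - 2 * s * b) * f x + (-2 * s * a - 2 * b) * g x)) ν := j2.add j3
    rw [e, integral_add j4 (integrable_const _), integral_add j2 j3, integral_add j1 hg2,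
      integral_add (hf2.const_mul _) (hfg.const_mul _),
      integral_add (hf.const_mul _) (hg.const_mul _)] at h
    simp only [integral_const_mul, integral_const, probReal_univ, smul_eq_mul, one_mul,
      ← ha, ← hb] at h
    refine h.trans (le_of_eq ?_)
    ring
  have hd := discrim_le_zero hcs
  rw [discrim] at hd
  nlinarith

namespace IsPot

/-- A crude bound on the potential. -/
lemma abs_le_quad (hW : IsPot W G H 0 η) (hη0 : 0 ≤ η) (x : Sp d) :
    |W x| ≤ |W 0| + (‖G 0‖ + η * ‖x‖) * ‖x‖ := by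
  have h := (convex_closedBall (0 : Sp d) ‖x‖).norm_image_sub_le_of_norm_fderiv_le
    (f := W) (C := ‖G 0‖ + η * ‖x‖) (fun y _ => hW.differentiable y) (fun y hy => by
      rw [hW.fderiv_norm]
      exact (hW.grad_le le_rfl y).trans (by
        rw [mem_closedBall_zero_iff] at hy
        nlinarith))
    (Metric.mem_closedBall_self (norm_nonneg x)) (mem_closedBall_zero_iff.2 le_rfl)
  rw [sub_zero, norm_eq_abs] at h
  linarith [abs_sub_abs_le_abs_sub (W x) (W 0)]

/-- A dominating function for the interpolation. -/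
lemma exists_dom (hW : IsPot W G H 0 η) (hη : η ≤ 1 / 2) (hη0 : 0 ≤ η) :
    ∃ D : Sp d → ℝ, Integrable D (gd d) ∧ ∀ t ∈ Metric.ball (1 / 2 : ℝ) (3 / 4), ∀ x,
      exp (-(t * W x)) * (1 + |W x| + ‖G x‖) ^ 2 ≤ D x := by
  set e0 := ‖G 0‖
  have he : 0 ≤ e0 := norm_nonneg _
  set c1 := 3 * (1 + |W 0| + e0 + η)
  refine ⟨fun x => c1 ^ 2 * exp (2 * |W 0| + 2 * (2 * e0 + 2) ^ 2) * exp (1 / 4 * ‖x‖ ^ 2),
    ((integral_exp_norm_sq (by norm_num) le_rfl).1).const_mul _, fun t ht x => ?_⟩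
  rw [Metric.mem_ball, dist_eq, abs_lt] at ht
  have hWx := hW.abs_le_quad hη0 x
  have hx := norm_nonneg x
  have hW0 := abs_nonneg (W 0)
  have hp : 1 + |W x| + ‖G x‖ ≤ c1 * exp ‖x‖ := by
    have hq := le_two_exp ‖x‖ hx
    have hs : 1 + |W x| + ‖G x‖ ≤ (1 + |W 0| + e0 + η) * (1 + ‖x‖ + ‖x‖ ^ 2) := by
      nlinarith [hW.grad_le le_rfl x, mul_nonneg hW0 hx, mul_nonneg hW0 (sq_nonneg ‖x‖),
        mul_nonneg he (sq_nonneg ‖x‖), mul_nonneg hη0 hx]
    exact hs.trans (by nlinarith)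
  have h1 : -(t * W x) ≤ 2 * |W 0| + 2 * e0 * ‖x‖ + ‖x‖ ^ 2 / 8 := by
    have hn : 0 ≤ e0 * ‖x‖ := by positivity
    rcases le_or_gt 0 t with h | h
    · have hl := mul_le_mul_of_nonneg_left (hW.lower le_rfl x) h
      have h2 : -(t * W 0) ≤ 2 * |W 0| := by
        nlinarith [le_abs_self (W 0), neg_abs_le (W 0)]
      nlinarith [sq_nonneg ‖x‖]
    · have hl := mul_le_mul_of_nonneg_left ((le_abs_self _).trans hWx) (neg_nonneg.2 h.le)
      have h3 : -t ≤ 1 / 4 := by linarith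
      have h4 := mul_le_mul_of_nonneg_right h3
        (show 0 ≤ |W 0| + (e0 + η * ‖x‖) * ‖x‖ by positivity)
      nlinarith [mul_le_mul_of_nonneg_right hη (sq_nonneg ‖x‖)]
  have h2 := pow_le_pow_left₀ (by positivity) hp 2
  calc exp (-(t * W x)) * (1 + |W x| + ‖G x‖) ^ 2
      ≤ exp (2 * |W 0| + 2 * e0 * ‖x‖ + ‖x‖ ^ 2 / 8) * (c1 * exp ‖x‖) ^ 2 :=
        mul_le_mul (exp_le_exp.2 h1) h2 (by positivity) (exp_pos _).le
    _ = c1 ^ 2 * exp (2 * |W 0| + 2 * e0 * ‖x‖ + ‖x‖ ^ 2 / 8 + 2 * ‖x‖) := by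
        rw [mul_pow, exp_add (2 * |W 0| + 2 * e0 * ‖x‖ + ‖x‖ ^ 2 / 8), ← exp_nat_mul]
        push_cast
        ring
    _ ≤ _ := by
        beta_reduce
        rw [mul_assoc (c1 ^ 2), ← exp_add]
        refine mul_le_mul_of_nonneg_left (exp_le_exp.2 ?_) (sq_nonneg _)
        nlinarith [sq_nonneg ((2 * e0 + 2) * 4 - ‖x‖)]

/-- `E‖G‖²` under a scaled tilt. -/
lemma grad_moment (hW : IsPot W G H 0 η) (hη : η ≤ 1 / 2) (hη0 : 0 ≤ η) {t : ℝ} (h0 : 0 ≤ t)
    (h1 : t ≤ 1) :
    Integrable (fun x => ‖G x‖ ^ 2) (gibbs fun x => t * W x) ∧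
      ∫ x, ‖G x‖ ^ 2 ∂gibbs (fun x => t * W x) ≤ (2 * (‖G 0‖ + η * √d)) ^ 2 := by
  have hS := hW.scale h0 h1
  have := hS.isProb le_rfl
  set e0 := ‖G 0‖
  have he : 0 ≤ e0 := norm_nonneg _
  have hx2 : Integrable (fun x : Sp d => ‖x‖ ^ 2) (gibbs fun x => t * W x) :=
    hS.integrable_gibbs_of_le le_rfl (continuous_norm.pow 2) (C := 3) (K := 1) fun x => by
      rw [norm_pow, norm_norm, one_mul]
      nlinarith [le_two_exp ‖x‖ (norm_nonneg x), norm_nonneg x]
  have hpt : ∀ x, ‖G x‖ ^ 2 ≤ 2 * e0 ^ 2 + 2 * η ^ 2 * ‖x‖ ^ 2 := fun x => by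
    nlinarith [pow_le_pow_left₀ (norm_nonneg _) (hW.grad_le le_rfl x) 2,
      sq_nonneg (e0 - η * ‖x‖)]
  have hi : Integrable (fun x => ‖G x‖ ^ 2) (gibbs fun x => t * W x) :=
    ((integrable_const _).add (hx2.const_mul _)).mono'
      (hW.continuous_grad.norm.pow 2).aestronglyMeasurable
      (ae_of_all _ fun x => by rw [norm_pow, norm_norm]; exact hpt x)
  refine ⟨hi, (integral_mono hi ((integrable_const _).add (hx2.const_mul _)) hpt).trans ?_⟩
  rw [integral_add' (integrable_const _) (hx2.const_mul _), integral_const, probReal_univ,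
    one_smul, integral_const_mul]
  have hsm := hS.second_moment hη
  have ht : ‖t • G 0‖ ≤ e0 := by
    rw [norm_smul, norm_eq_abs, abs_of_nonneg h0]
    exact mul_le_of_le_one_left (norm_nonneg _) h1
  have hsm' : ∫ x, ‖x‖ ^ 2 ∂gibbs (fun x => t * W x) ≤ 2 * d + 4 * e0 ^ 2 := by
    linarith [pow_le_pow_left₀ (norm_nonneg _) ht 2]
  have hd : √(d:ℝ) ^ 2 = d := sq_sqrt d.cast_nonneg
  have h4 : η ^ 2 ≤ 1 / 4 := by nlinarith
  nlinarith [mul_le_mul_of_nonneg_left hsm' (show 0 ≤ 2 * η ^ 2 by positivity),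
    mul_le_mul_of_nonneg_right h4 (sq_nonneg e0),
    mul_nonneg (mul_nonneg he hη0) (sqrt_nonneg (d:ℝ))]

/-- The covariance of `W` and a linear form of the gradient. -/
lemma cov_le (hW : IsPot W G H 0 η) (hη : η ≤ 1 / 2) (hη0 : 0 ≤ η) (u : Sp d) {t : ℝ}
    (h0 : 0 ≤ t) (h1 : t ≤ 1)
    (iW : Integrable W (gibbs fun x => t * W x))
    (iW2 : Integrable (fun x => W x ^ 2) (gibbs fun x => t * W x))
    (ig : Integrable (fun x => ⟪u, G x⟫) (gibbs fun x => t * W x))
    (iWg : Integrable (fun x => W x * ⟪u, G x⟫) (gibbs fun x => t * W x)) :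
    |∫ x, W x * ⟪u, G x⟫ ∂gibbs (fun x => t * W x) -
      (∫ x, W x ∂gibbs (fun x => t * W x)) * ∫ x, ⟪u, G x⟫ ∂gibbs (fun x => t * W x)|
      ≤ 4 * η * (‖G 0‖ + η * √d) * ‖u‖ := by
  have hS := hW.scale h0 h1
  have := hS.isProb le_rfl
  obtain ⟨iG2, hG2⟩ := hW.grad_moment hη hη0 h0 h1
  set ν := gibbs fun x => t * W x
  have hgd : ∀ x, ‖fderiv ℝ (fun x => ⟪u, G x⟫) x‖ ≤ η * ‖u‖ := fun x => by
    have h := ((innerSL ℝ u).hasFDerivAt.comp x (hW.hasHess x))
    rw [show (fun x => ⟪u, G x⟫) = (innerSL ℝ u) ∘ G from rfl, h.fderiv]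
    refine ContinuousLinearMap.opNorm_le_bound _ (by positivity) fun v => ?_
    calc ‖⟪u, H x v⟫‖ ≤ ‖u‖ * ‖H x v‖ := norm_inner_le_norm _ _
      _ ≤ ‖u‖ * (η * ‖v‖) := by gcongr; exact hW.hess_apply_le le_rfl x v
      _ = _ := by ring
  have hg1 : ContDiff ℝ 1 fun x => ⟪u, G x⟫ := contDiff_const.inner ℝ hW.contDiff_grad
  have ig2 : Integrable (fun x => ⟪u, G x⟫ ^ 2) ν := by
    refine (iG2.const_mul (‖u‖ ^ 2)).mono' (hg1.continuous.pow 2).aestronglyMeasurable
      (ae_of_all _ fun x => ?_)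
    rw [norm_pow, norm_eq_abs, ← mul_pow]
    exact pow_le_pow_left₀ (abs_nonneg _) (abs_real_inner_le_norm _ _) 2
  have hDg : Integrable (fun x => ‖fderiv ℝ (fun x => ⟪u, G x⟫) x‖ ^ 2) ν :=
    (integrable_const ((η * ‖u‖) ^ 2)).mono'
      ((hg1.continuous_fderiv one_ne_zero).norm.pow 2).aestronglyMeasurable
      (ae_of_all _ fun x => by
        rw [norm_pow, norm_norm]; exact pow_le_pow_left₀ (norm_nonneg _) (hgd x) 2)
  have hvg : ∫ x, ⟪u, G x⟫ ^ 2 ∂ν - (∫ x, ⟪u, G x⟫ ∂ν) ^ 2 ≤ (η * ‖u‖) ^ 2 := by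
    refine (hS.poincare le_rfl hg1 ig2 hDg).trans ?_
    rw [add_zero, inv_one, one_mul]
    refine (integral_mono hDg (integrable_const ((η * ‖u‖) ^ 2)) fun x =>
      pow_le_pow_left₀ (norm_nonneg _) (hgd x) 2).trans ?_
    simp
  have hDW : Integrable (fun x => ‖fderiv ℝ W x‖ ^ 2) ν := by
    simp only [hW.fderiv_norm]; exact iG2
  have hvW : ∫ x, W x ^ 2 ∂ν - (∫ x, W x ∂ν) ^ 2 ≤ (2 * (‖G 0‖ + η * √d)) ^ 2 := by
    refine (hS.poincare le_rfl (hW.contDiff.of_le (by norm_num)) iW2 hDW).trans ?_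
    rw [add_zero, inv_one, one_mul]
    simp only [hW.fderiv_norm]
    exact hG2
  have h := cov_sq_le iW ig iW2 ig2 iWg
  have hnn : 0 ≤ ∫ x, ⟪u, G x⟫ ^ 2 ∂ν - (∫ x, ⟪u, G x⟫ ∂ν) ^ 2 := by
    have := cov_sq_le ig (integrable_const (0:ℝ)) ig2 (by simp) (by simp)
    have h2 : 0 ≤ ∫ x, (⟪u, G x⟫ - ∫ y, ⟪u, G y⟫ ∂ν) ^ 2 ∂ν := integral_nonneg fun x => sq_nonneg _
    have h3 := variance_eq_sub (X := fun x => ⟪u, G x⟫) (μ := ν)
      ((memLp_two_iff_integrable_sq hg1.continuous.aestronglyMeasurable).2 ig2)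
    have h4 := variance_nonneg (fun x => ⟪u, G x⟫) ν
    simp only [Pi.pow_apply] at h3
    linarith
  have h5 : 0 ≤ η * ‖u‖ * (2 * (‖G 0‖ + η * √d)) := by positivity
  have hsq : (∫ x, W x * ⟪u, G x⟫ ∂ν - (∫ x, W x ∂ν) * ∫ x, ⟪u, G x⟫ ∂ν) ^ 2
      ≤ (η * ‖u‖ * (2 * (‖G 0‖ + η * √d))) ^ 2 := by
    refine h.trans ?_
    rw [mul_pow, mul_comm ((η * ‖u‖) ^ 2)]
    exact mul_le_mul hvW hvg hnn (sq_nonneg _)
  have := abs_le_of_sq_le_sq hsq h5
  linarith

/-- The interpolation. -/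
lemma tilt_inner (hW : IsPot W G H 0 η) (hη : η ≤ 1 / 2) (hη0 : 0 ≤ η) (u : Sp d) :
    ∫ x, ⟪u, G x⟫ ∂gibbs W - ∫ x, ⟪u, G x⟫ ∂gd d ≤ 4 * η * (‖G 0‖ + η * √d) * ‖u‖ := by
  obtain ⟨D, hDi, hsub⟩ := hW.exists_dom hη hη0
  have hWc := hW.contDiff.continuous
  have hGc := hW.continuous_grad
  set g := fun x => ⟪u, G x⟫
  have hgc : Continuous g := continuous_const.inner hGc
  have hu1 : 1 ≤ 1 + ‖u‖ := by linarith [norm_nonneg u]
  set Q := fun x => 1 + |W x| + ‖G x‖
  have hQ1 : ∀ x, 1 ≤ Q x := fun x => by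
    simp only [Q]; linarith [abs_nonneg (W x), norm_nonneg (G x)]
  have hQ2 : ∀ x, Q x ≤ Q x ^ 2 := fun x => le_self_pow₀ (hQ1 x) two_ne_zero
  have hgb : ∀ x, |g x| ≤ (1 + ‖u‖) * Q x := fun x =>
    (abs_real_inner_le_norm _ _).trans (mul_le_mul (by linarith)
      (by simp only [Q]; linarith [abs_nonneg (W x)]) (norm_nonneg _) (by positivity))
  have hWb : ∀ x, |W x| ≤ Q x := fun x => by simp only [Q]; linarith [norm_nonneg (G x)]
  have hint : ∀ k : Sp d → ℝ, Continuous k → (∀ x, |k x| ≤ (1 + ‖u‖) * Q x ^ 2) →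
      ∀ s ∈ Metric.ball (1 / 2 : ℝ) (3 / 4), Integrable (fun x => exp (-(s * W x)) * k x) (gd d) :=
    fun k hk hkb s hs => by
      refine (hDi.const_mul (1 + ‖u‖)).mono' (by fun_prop : Continuous _).aestronglyMeasurable
        (ae_of_all _ fun x => ?_)
      rw [norm_mul, norm_eq_abs, norm_eq_abs, abs_exp]
      refine (mul_le_mul_of_nonneg_left (hkb x) (exp_pos _).le).trans ?_
      rw [mul_left_comm]
      exact mul_le_mul_of_nonneg_left (hsub s hs x) (by positivity)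
  have hmem : ∀ t ∈ Set.Icc (0:ℝ) 1, Metric.ball (1 / 2 : ℝ) (3 / 4) ∈ 𝓝 t := fun t ht =>
    Metric.isOpen_ball.mem_nhds (by
      rw [Metric.mem_ball, dist_eq, abs_lt]; constructor <;> linarith [ht.1, ht.2])
  have hder : ∀ k : Sp d → ℝ, Continuous k → (∀ x, |k x| ≤ (1 + ‖u‖) * Q x) →
      ∀ t ∈ Set.Icc (0:ℝ) 1, HasDerivAt (fun t => ∫ x, exp (-(t * W x)) * k x ∂gd d)
        (-∫ x, exp (-(t * W x)) * (W x * k x) ∂gd d) t := by
    intro k hk hkb t ht
    have h := (hasDerivAt_integral_of_dominated_loc_of_deriv_le (μ := gd d)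
      (F := fun s x => exp (-(s * W x)) * k x)
      (F' := fun s x => -(exp (-(s * W x)) * (W x * k x))) (x₀ := t) (hmem t ht)
      (bound := fun x => (1 + ‖u‖) * D x)
      (Eventually.of_forall fun s => (by fun_prop : Continuous _).aestronglyMeasurable)
      (hint k hk (fun x => (hkb x).trans (mul_le_mul_of_nonneg_left (hQ2 x) (by positivity)))
        t (mem_of_mem_nhds (hmem t ht)))
      (by fun_prop : Continuous _).aestronglyMeasurable
      (ae_of_all _ fun x s hs => by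
        rw [norm_neg, norm_mul, norm_eq_abs, norm_eq_abs, abs_exp, abs_mul]
        refine (mul_le_mul_of_nonneg_left (mul_le_mul (hWb x) (hkb x) (abs_nonneg _)
          (zero_le_one.trans (hQ1 x))) (exp_pos _).le).trans ?_
        calc exp (-(s * W x)) * (Q x * ((1 + ‖u‖) * Q x))
            = (1 + ‖u‖) * (exp (-(s * W x)) * Q x ^ 2) := by ring
          _ ≤ _ := mul_le_mul_of_nonneg_left (hsub s hs x) (by positivity))
      (hDi.const_mul _) (ae_of_all _ fun x s _ => ?_)).2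
    · rwa [integral_neg] at h
    · refine ((((hasDerivAt_id s).mul_const (W x)).neg).exp.mul_const (k x)).congr_deriv ?_
      simp
      ring
  set N := fun t => ∫ x, exp (-(t * W x)) * g x ∂gd d
  set Z := fun t => ∫ x, exp (-(t * W x)) ∂gd d
  have hN : ∀ t ∈ Set.Icc (0:ℝ) 1, HasDerivAt N (-∫ x, exp (-(t * W x)) * (W x * g x) ∂gd d) t :=
    fun t ht => hder g hgc hgb t ht
  have hZ : ∀ t ∈ Set.Icc (0:ℝ) 1, HasDerivAt Z (-∫ x, exp (-(t * W x)) * W x ∂gd d) t :=
    fun t ht => by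
      simpa using hder (fun _ => (1:ℝ)) continuous_const
        (fun x => by rw [abs_one]; exact one_le_mul_of_one_le_of_one_le hu1 (hQ1 x)) t ht
  have hbound : ∀ t ∈ Set.Icc (0:ℝ) 1, ∃ D', HasDerivAt (fun t => N t / Z t) D' t ∧
      D' ≤ 4 * η * (‖G 0‖ + η * √d) * ‖u‖ := by
    intro t ht
    have hS := hW.scale ht.1 ht.2
    have hZp : 0 < Z t := hS.integral_exp_neg_pos le_rfl
    refine ⟨_, (hN t ht).div (hZ t ht) hZp.ne', ?_⟩
    have hI : ∀ k : Sp d → ℝ, Continuous k → (∀ x, |k x| ≤ (1 + ‖u‖) * Q x ^ 2) →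
        Integrable k (gibbs fun x => t * W x) := fun k hk hkb => by
      rw [gibbs, integrable_tilted_iff (hS.integrable_exp_neg le_rfl)]
      exact hint k hk hkb t (mem_of_mem_nhds (hmem t ht))
    have h := hW.cov_le hη hη0 u ht.1 ht.2
      (hI W hWc fun x => ((hWb x).trans (hQ2 x)).trans (le_mul_of_one_le_left (by positivity) hu1))
      (hI _ (hWc.pow 2) fun x => by
        rw [abs_pow]
        exact (pow_le_pow_left₀ (abs_nonneg _) (hWb x) 2).trans
          (le_mul_of_one_le_left (by positivity) hu1))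
      (hI g hgc fun x => (hgb x).trans (mul_le_mul_of_nonneg_left (hQ2 x) (by positivity)))
      (hI _ (hWc.mul hgc) fun x => by
        rw [abs_mul]
        calc |W x| * |g x| ≤ Q x * ((1 + ‖u‖) * Q x) :=
              mul_le_mul (hWb x) (hgb x) (abs_nonneg _) (zero_le_one.trans (hQ1 x))
          _ = _ := by ring)
    simp only [integral_gibbs] at h
    have hb := (abs_le.1 h).1
    simp only [N, Z] at hZp ⊢
    field_simp at hb ⊢
    linarith
  choose! D' hD' hle using hbound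
  obtain ⟨s, hs, hs'⟩ := exists_hasDerivAt_eq_slope (fun t => N t / Z t) D' zero_lt_one
    (fun t ht => (hD' t ht).continuousAt.continuousWithinAt)
    (fun t ht => hD' t (Set.Ioo_subset_Icc_self ht))
  have hb := hle s (Set.Ioo_subset_Icc_self hs)
  rw [hs'] at hb
  have e1 : N 1 / Z 1 = ∫ x, g x ∂gibbs W := by simp [N, Z, integral_gibbs]
  have e0' : N 0 / Z 0 = ∫ x, g x ∂gd d := by simp [N, Z]
  rw [e1, e0'] at hb
  simpa using hb

end IsPot

end Vale.Agent.P347.Quarter
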